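import Crest.Agent.X212.Dfl49.Top
import Crest.Agent.X212.M.Lit

/-!
# Row 212, PN-GEO (helper64): frames and simple connectivity of a pinching band
-/

set_option autoImplicit false
set_option linter.unusedSectionVars false
noncomputable section
open Set Function Filter Topology Metric
open scoped ContDiff Manifold InnerProductSpace Matrix

namespace Crest.Agent.X212.Png64
open An M Pj41 Sob92 Std94 Hz56 Dfl49 Cyl58 Cyf70
open Met55 (ld_bij)

section rnd
variable {Y : Mf 3} {κ : Type} [Fintype κ] {F : Fr Y.I Y.M κ} {θ : Y.M → V4} (h : Round F θ)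
include h

theorem rnd_emb : IsEmbedding θ := by
  have := h.oe.isOpenEmbedding.isEmbedding.comp (isEmbedding_prodMkLeft (X := Y.M) (0 : ℝ))
  simpa [comp_def] using this

theorem rnd_range : range θ = sphere 0 1 := by
  ext v
  rw [mem_sphere_zero_iff_norm]
  exact ⟨fun ⟨y, e⟩ => e ▸ h.nrm y, h.surj v⟩

/-- slabs over a round cross-section are simply connected -/
theorem rnd_sur (s t : ℝ) {q : Y.M × ℝ} (hq : q ∈ (univ : Set Y.M) ×ˢ Ioo s t) :
    Sur {q} (univ ×ˢ Ioo s t) := by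
  have := Hz56.locConn (M := Y.M) Y.I
  refine Loc8.sur_of_h1 (isOpen_univ.prod isOpen_Ioo) (IsPreconnected.prod ?_ isPreconnected_Ioo)
    (fun G _ => H1.prod_convex ?_ (convex_Ioo s t)) hq
  · rw [← (rnd_emb h).isInducing.isPreconnected_image, image_univ, rnd_range h]
    exact isPreconnected_sphere (by rw [← Module.finrank_eq_rank]; simp) _ _
  · rw [← h1_range_iff (rnd_emb h), rnd_range h]
    exact h1_sphere' (by simp)

end rnd

section frs
variable {E : Type} [NormedAddCommGroup E] [NormedSpace ℝ E] [FiniteDimensional ℝ E]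
  [MeasurableSpace E] [BorelSpace E]
  {HM : Type} [TopologicalSpace HM] {I : ModelWithCorners ℝ E HM} [I.Boundaryless]
  {M : Type} [TopologicalSpace M] [ChartedSpace HM M] [IsManifold I ∞ M]
  [MeasurableSpace M] {ι : Type} [Fintype ι] {lam : Type} [Fintype lam]
  {B : Base M ι lam} {S : Set M}

/-- frames from an immersion into `ℝ⁴` -/
theorem frs_imm (h4 : Module.finrank ℝ E = 4) (hB : B.OK I) (F : Fr I M ι) (hP : F.P = B.P)
    (hS : IsOpen S) {v : M → V4} {s : M → Eu lam} (sv : ∀ x ∈ S, FSm I v x)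
    (i : ∀ x ∈ S, Injective (mfderiv I 𝓘(ℝ, V4) v x))
    (ss : ∀ x ∈ S, FSm I s x) (n : ∀ x ∈ S, ‖s x‖ = 1) (l : ∀ x ∈ S, B.l x (s x) = s x) :
    Frs I B S := by
  let L : M → E →ₗ[ℝ] Fin 4 → ℝ := fun x => LinearMap.pi fun k =>
    ((EuclideanSpace.proj k ∘L mfderiv I 𝓘(ℝ, V4) v x : E →L[ℝ] ℝ) : E →ₗ[ℝ] ℝ)
  refine frs_of hB hS (A := fun x => .of fun a i => L x (F.e a x) i) (fun x hx a k => ?_)
    (fun x _ a i => ?_) (fun x hx c hc => ?_) ss n l
  · exact Kl.clm (K := smAt I x) (EuclideanSpace.proj k) ((Wz78.frm F).sD a (sv x hx))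
  · conv_rhs => rw [Matrix.of_apply, ← F.P_e a x]
    erw [map_sum]
    simp only [Finset.sum_apply, hP, Matrix.of_apply]
    exact Finset.sum_congr rfl fun b _ => (congrFun ((L x).map_smul _ _) i).symm
  · have k : Surjective (L x) := (LinearMap.injective_iff_surjective_of_finrank_eq_finrank
      (by simp [h4])).1 ((injective_iff_map_eq_zero _).2 fun ξ h => i x hx
        (Eq.trans (b := (0 : V4)) (PiLp.ext fun k => congrFun h k) (map_zero _).symm))
    obtain ⟨ξ, rfl⟩ := k c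
    have : (dotProductBilin ℝ ℝ).flip (L x ξ) ∘ₗ L x = 0 :=
      LinearMap.ext_on_range (F.span x) fun a => congrFun hc a
    exact dotProduct_self_eq_zero.1 (DFunLike.congr_fun this ξ)

end frs

variable {X : Mf 4} {A κ lam : Type} [Fintype A] [Fintype κ] [Fintype lam] [DecidableEq lam]
  {M : Mark X A κ} {W : World M} {N : ML M lam}

/-- frames on a pinching band -/
theorem frs_nj (Λ : Lns W N) (m c : M.Cl) {a : A} (ha : a ∈ M.sys.fr c.1) (hp : M.pin a) :
    Frs (W.Z c).I (Λ.B m c) (W.nj c a '' {q | |q.2| < 1}) := by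
  have h := M.rnd a hp
  obtain ⟨y₀, -⟩ := h.surj (EuclideanSpace.single 0 1) (by simp)
  have : Nonempty ((M.bn a).Y.M × ℝ) := ⟨(y₀, 0)⟩
  have k : ∀ q, (M.bn a).j q ∈ (W.φ c).source := fun q =>
    (W.mem_src c).2 (Mark.fr_not_mem ha (mem_range_self q))
  have o : IsOE (IC (M.bn a).Y.I) (W.Z c).I (W.nj c a) := .of_pd (W.φ c) (M.bn a).oe k
  obtain ⟨p₀, hp₀⟩ := N.cst a hp
  obtain ⟨e, he⟩ := Line51.exists_unit ((N.okY a).prj y₀ trivial) ((N.okY a).tr y₀ trivial)
  have l : ∀ z ∈ W.nj c a '' {q | |q.2| < 1},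
      IsLocalDiffeomorphAt (W.Z c).I (IC (M.bn a).Y.I) ∞ o.pd.symm z :=
    fun z hz => ⟨o.pd.symm, image_subset_range _ _ hz, fun _ _ => rfl⟩
  have u0 : Line51.Uni (IC (M.bn a).Y.I) (fun _ => 1) (fun q => (N.LY a).p q.1) (fun _ => e)
      {q : (M.bn a).Y.M × ℝ | |q.2| < 1} :=
    ⟨fun _ _ => MSm.const _, fun q _ => by rw [hp₀] at he ⊢; exact he⟩
  have u := ((u0.trans ((N.um a).symm.mono fun q (hq : |q.2| < 1) =>
    show |q.2| ≤ 3 by linarith)).trans ((Λ.uni m c).comp (J := IC (M.bn a).Y.I)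
      ⟨fun q _ => (M.bn a).oe.contMDiff q, fun q _ => k q⟩)).comp (J := (W.Z c).I)
    (W := W.nj c a '' {q | |q.2| < 1}) ⟨fun z hz => (l z hz).contMDiffAt, by
      rintro _ ⟨q, hq, rfl⟩
      rw [o.pd_symm_apply]; exact hq⟩
  refine frs_imm (W.Z c).dim (Λ.B_ok m c) (W.L m c).F0 rfl
    (o.isOpen_image (isOpen_lt (by fun_prop) continuous_const))
    (v := (fun q : (M.bn a).Y.M × ℝ => Real.exp q.2 • M.th a q.1) ∘ o.pd.symm)
    (s := fun z => Line51.rl (Λ.v m c ((M.bn a).j (o.pd.symm z)) * ((N.m a (o.pd.symm z))ᴴ * e))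
      (EuclideanSpace.single (.inl ()) 1))
    (fun z hz => (ld_comp (h.oe.loc _) (l z hz)).contMDiffAt)
    (fun z hz => (ld_bij (ld_comp (h.oe.loc _) (l z hz))).1)
    (fun z hz => (smAt _ z).app (Line51.fsm_rl (u.sm z hz)) ((smAt _ z).const _))
    (fun z hz => ?_) fun z hz => ?_
  · rw [← sq_eq_sq₀ (norm_nonneg _) zero_le_one, ← real_inner_self_eq_norm_sq, ← inner_ad_left,
      ← Line51.rl_ad, ← ContinuousLinearMap.comp_apply, ← Line51.rl_comp, (u.iso z hz).src,
      Line51.rl_one]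
    simp
  · have := congrArg Line51.rl (u.iso z hz).left
    have e1 : W.φ c ((M.bn a).j (o.pd.symm z)) = z :=
      o.pd.right_inv (image_subset_range _ _ hz)
    erw [Line51.rl_comp, e1] at this
    exact DFunLike.congr_fun this _

end Crest.Agent.X212.Png64
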