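import Crest.Agent.X212.M.Lvi
import Crest.Agent.X212.Png64.Gen

/-!
# Row 212, PN-GEO (helper64): the leaf `GeoStmt`
-/

namespace Crest.Agent.X212.Png64
open M

/-- **PN-GEO** -/
theorem geo {X : Mf 4} {A κ lam : Type} [Fintype A] [Fintype κ] [Fintype lam]
    [DecidableEq lam] {M : Mark X A κ} {N : ML M lam} (W : World M) (Λ : Lns W N) :
    GeoStmt W Λ := fun m c a ha hp =>
  ⟨frs_nj Λ m c ha hp, fun s t _ hq => rnd_sur (M.rnd a hp) s t hq⟩

end Crest.Agent.X212.Png64
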